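import Vale.Agent.P235.K5.H910.Cut

/-!
# Wagner's step, row [W-CUT]: hubs in all `A i` of a pure model give a 3-set with three components
-/

namespace Vale.Agent.P235.K5.H910

open SimpleGraph

variable {V : Type} {G : SimpleGraph V}

/-- a pure model: six disjoint connected parts covering `V`, no `A`-`A` and no `B`-`B` edge, and a
hub in every `A i`: then three vertices leave at least three components -/
theorem cut3 (A B : Fin 3 → Set V)
    (cov : ∀ v, (∃ i, v ∈ A i) ∨ ∃ j, v ∈ B j)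
    (dA : ∀ i i', i ≠ i' → Disjoint (A i) (A i')) (dB : ∀ j j', j ≠ j' → Disjoint (B j) (B j'))
    (dAB : ∀ i j, Disjoint (A i) (B j))
    (pA : ∀ i i', i ≠ i' → ¬ Touch G (A i) (A i')) (pB : ∀ j j', j ≠ j' → ¬ Touch G (B j) (B j'))
    (cB : ∀ j, (G.induce (B j)).Connected)
    (hub : ∀ i, ∃ h ∈ A i, ∀ C : Set V, C ⊆ A i → h ∉ C → (G.induce C).Connected →
      ∀ j j', Touch G C (B j) → Touch G C (B j') → j = j') :
    ∃ (S : Finset V) (D : Fin 3 → Set V), S.card = 3 ∧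
      (∀ j, (G.induce (D j)).Connected) ∧ (∀ j, Disjoint (D j) (S : Set V)) ∧
      (∀ j j', j ≠ j' → Disjoint (D j) (D j')) ∧
      ∀ j, ∀ u ∈ D j, ∀ v, G.Adj u v → v ∈ D j ∨ v ∈ S := by
  classical
  choose h hh hub using hub
  obtain ⟨h1, -, h3, h4, h5⟩ := cut_core A B h cov dA dB dAB pA pB cB hh hub
  have hinj : Function.Injective h := by
    intro i i' e
    by_contra hne
    exact Set.disjoint_left.1 (dA i i' hne) (hh i) (e ▸ hh i')
  refine ⟨Finset.univ.image h, comp G A B h, ?_, h1, ?_, h4, ?_⟩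
  · rw [Finset.card_image_of_injective _ hinj]
    rfl
  · intro j
    rw [Set.disjoint_left]
    intro v hv hS
    obtain ⟨i, -, rfl⟩ := Finset.mem_image.1 (Finset.mem_coe.1 hS)
    exact h3 j i hv
  · intro j u hu v huv
    rcases h5 j u hu v huv with hv | ⟨i, rfl⟩
    · exact Or.inl hv
    · exact Or.inr (Finset.mem_image.2 ⟨i, Finset.mem_univ _, rfl⟩)

/-- the same with the two sides exchanged -/
theorem cut3' (A B : Fin 3 → Set V)
    (cov : ∀ v, (∃ i, v ∈ A i) ∨ ∃ j, v ∈ B j)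
    (dA : ∀ i i', i ≠ i' → Disjoint (A i) (A i')) (dB : ∀ j j', j ≠ j' → Disjoint (B j) (B j'))
    (dAB : ∀ i j, Disjoint (A i) (B j))
    (pA : ∀ i i', i ≠ i' → ¬ Touch G (A i) (A i')) (pB : ∀ j j', j ≠ j' → ¬ Touch G (B j) (B j'))
    (cA : ∀ i, (G.induce (A i)).Connected)
    (hub : ∀ j, ∃ h ∈ B j, ∀ C : Set V, C ⊆ B j → h ∉ C → (G.induce C).Connected →
      ∀ i i', Touch G C (A i) → Touch G C (A i') → i = i') :
    ∃ (S : Finset V) (D : Fin 3 → Set V), S.card = 3 ∧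
      (∀ j, (G.induce (D j)).Connected) ∧ (∀ j, Disjoint (D j) (S : Set V)) ∧
      (∀ j j', j ≠ j' → Disjoint (D j) (D j')) ∧
      ∀ j, ∀ u ∈ D j, ∀ v, G.Adj u v → v ∈ D j ∨ v ∈ S :=
  cut3 B A (fun v => (cov v).symm) dB dA (fun i j => (dAB j i).symm) pB pA cA hub

end Vale.Agent.P235.K5.H910
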