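import Vale.Agent.P235.K5.H910.Cut
import Vale.Agent.P235.H56.Defs

/-!
# Wagner's step, end of row [W-V8]: if every part of a partition of a 3-connected graph (at least
three parts) has a hub, all of whose branches touch at most one other part, then every part is a
single vertex
-/

namespace Vale.Agent.P235.K5.H910

open SimpleGraph Vale.Agent.P235.H56

variable {V : Type} {G : SimpleGraph V}

/-- the vertices of branches of `P i - h i` touching `P j` -/
def br (G : SimpleGraph V) {ι : Type} (P : ι → Set V) (h : ι → V) (i j : ι) : Set V :=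
  {v | ∃ C : Set V, C ⊆ P i ∧ h i ∉ C ∧ v ∈ C ∧ (G.induce C).Connected ∧ Touch G C (P j)}

theorem all_hub {ι : Type} (hG : Conn3 G) (P : ι → Set V) (h : ι → V)
    (cov : ∀ v, ∃ i, v ∈ P i) (dis : ∀ i j, i ≠ j → Disjoint (P i) (P j))
    (hh : ∀ i, h i ∈ P i)
    (hub : ∀ i, ∀ C : Set V, C ⊆ P i → h i ∉ C → (G.induce C).Connected →
      ∀ j j', j ≠ i → j' ≠ i → Touch G C (P j) → Touch G C (P j') → j = j')
    (three : ∀ i j : ι, ∃ k, k ≠ i ∧ k ≠ j) : ∀ i, ∀ v ∈ P i, v = h i := by
  have hne : ∀ i j, i ≠ j → h i ≠ h j := fun i j hij e =>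
    Set.disjoint_left.1 (dis i j hij) (hh i) (e ▸ hh j)
  -- a vertex of `P i` is not in `P j`
  have huniq : ∀ i j v, v ∈ P i → v ∈ P j → i = j := fun i j v hi hj => by
    by_contra hij
    exact Set.disjoint_left.1 (dis i j hij) hi hj
  -- one step of the closure
  have step : ∀ i j, i ≠ j → ∀ u ∈ br G P h i j, ∀ w, G.Adj u w →
      w ∈ br G P h i j ∨ w ∈ br G P h j i ∨ w = h i ∨ w = h j := by
    rintro i j hij u ⟨C, hCP, hhC, huC, hC, hT⟩ w huw
    obtain ⟨k, hk⟩ := cov w
    by_cases hki : k = i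
    · subst hki
      by_cases e : w = h k
      · exact Or.inr (Or.inr (Or.inl e))
      · refine Or.inl ⟨C ∪ {w}, ?_, ?_, Or.inr rfl, ?_, ?_⟩
        · rintro x (hx | rfl)
          · exact hCP hx
          · exact hk
        · rintro (h1 | h1)
          · exact hhC h1
          · exact e h1.symm
        · exact connected_induce_union hC.preconnected (connected_single w).preconnected huC rfl huw
        · obtain ⟨x, hx, y, hy, hxy⟩ := hT
          exact ⟨x, Or.inl hx, y, hy, hxy⟩
    · have hkj : k = j := hub i C hCP hhC hC k j hki (Ne.symm hij) ⟨u, huC, w, hk, huw⟩ hT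
      subst hkj
      by_cases e : w = h k
      · exact Or.inr (Or.inr (Or.inr e))
      · refine Or.inr (Or.inl ⟨{w}, ?_, fun h1 => e h1.symm, rfl, connected_single w,
          w, rfl, u, hCP huC, huw.symm⟩)
        rintro x rfl
        exact hk
  intro i v hv
  by_contra hvi
  by_cases hex : ∃ j, j ≠ i ∧ v ∈ br G P h i j
  · obtain ⟨j, hji, hvj⟩ := hex
    obtain ⟨k, hki, hkj⟩ := three i j
    have hout : ∀ a b x, x ∈ br G P h a b → x ∈ P a ∧ x ≠ h a := by
      rintro a b x ⟨C, hCP, hhC, hxC, -, -⟩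
      exact ⟨hCP hxC, fun e => hhC (e ▸ hxC)⟩
    have hmem : ∀ x, x ∈ br G P h i j ∪ br G P h j i → (x ∈ P i ∧ x ≠ h i) ∨ (x ∈ P j ∧ x ≠ h j) := by
      rintro x (hx | hx)
      · exact Or.inl (hout i j x hx)
      · exact Or.inr (hout j i x hx)
    have := hG (h i) (h j) (br G P h i j ∪ br G P h j i) ⟨v, Or.inl hvj⟩ ?_ ?_ ?_ (h k)
    · rcases this with h1 | h1 | h1
      · rcases hmem _ h1 with h2 | h2
        · exact hki (huniq k i _ (hh k) h2.1)
        · exact hkj (huniq k j _ (hh k) h2.1)
      · exact hne k i hki h1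
      · exact hne k j hkj h1
    · intro h1
      rcases hmem _ h1 with h2 | h2
      · exact h2.2 rfl
      · exact hji (huniq j i _ h2.1 (hh i))
    · intro h1
      rcases hmem _ h1 with h2 | h2
      · exact hji (huniq j i _ (hh j) h2.1)
      · exact h2.2 rfl
    · rintro u (hu | hu) w huw
      · rcases step i j (Ne.symm hji) u hu w huw with h1 | h1 | h1 | h1
        · exact Or.inl (Or.inl h1)
        · exact Or.inl (Or.inr h1)
        · exact Or.inr (Or.inl h1)
        · exact Or.inr (Or.inr h1)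
      · rcases step j i hji u hu w huw with h1 | h1 | h1 | h1
        · exact Or.inl (Or.inr h1)
        · exact Or.inl (Or.inl h1)
        · exact Or.inr (Or.inr h1)
        · exact Or.inr (Or.inl h1)
  · -- no branch through `v` touches another part
    have hno : ∀ C : Set V, C ⊆ P i → h i ∉ C → v ∈ C → (G.induce C).Connected →
        ∀ j, j ≠ i → ¬ Touch G C (P j) := fun C h1 h2 h3 h4 j hj hT =>
      hex ⟨j, hj, C, h1, h2, h3, h4, hT⟩
    obtain ⟨k, hki, -⟩ := three i i
    have := hG (h i) (h i)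
      {w | ∃ C : Set V, C ⊆ P i ∧ h i ∉ C ∧ v ∈ C ∧ w ∈ C ∧ (G.induce C).Connected}
      ⟨v, {v}, by rintro x rfl; exact hv, fun h1 => hvi h1.symm, rfl, rfl, connected_single v⟩
      ?_ ?_ ?_ (h k)
    · rcases this with ⟨C, hCP, -, -, hkC, -⟩ | h1 | h1
      · exact hki (huniq k i _ (hh k) (hCP hkC))
      · exact hne k i hki h1
      · exact hne k i hki h1
    · rintro ⟨C, -, hhC, -, hC, -⟩
      exact hhC hC
    · rintro ⟨C, -, hhC, -, hC, -⟩
      exact hhC hC
    · rintro u ⟨C, hCP, hhC, hvC, huC, hC⟩ w huw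
      obtain ⟨l, hl⟩ := cov w
      by_cases hli : l = i
      · subst hli
        by_cases e : w = h l
        · exact Or.inr (Or.inl e)
        · refine Or.inl ⟨C ∪ {w}, ?_, ?_, Or.inl hvC, Or.inr rfl, ?_⟩
          · rintro x (hx | rfl)
            · exact hCP hx
            · exact hl
          · rintro (h1 | h1)
            · exact hhC h1
            · exact e h1.symm
          · exact connected_induce_union hC.preconnected (connected_single w).preconnected
              huC rfl huw
      · exact absurd ⟨u, huC, w, hl, huw⟩ (hno C hCP hhC hvC hC l hli)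

/-- so the number of vertices is the number of parts -/
theorem card_of_all_hub {ι : Type} (P : ι → Set V) (h : ι → V)
    (cov : ∀ v, ∃ i, v ∈ P i) (dis : ∀ i j, i ≠ j → Disjoint (P i) (P j))
    (hh : ∀ i, h i ∈ P i) (all : ∀ i, ∀ v ∈ P i, v = h i) : Nat.card V = Nat.card ι := by
  refine (Nat.card_congr (Equiv.ofBijective h ⟨fun i j e => ?_, fun v => ?_⟩)).symm
  · by_contra hij
    exact Set.disjoint_left.1 (dis i j hij) (hh i) (e ▸ hh j)
  · obtain ⟨i, hi⟩ := cov v
    exact ⟨i, (all i v hi).symm⟩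

end Vale.Agent.P235.K5.H910
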