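import Mathlib

/-!
# Wagner's step, row [W-CUT]: hubs in the three parts `A 0, A 1, A 2` of a pure model are a
3-vertex cut with (at least) three components
-/

namespace Vale.Agent.P235.K5.H910

open SimpleGraph

variable {V : Type} {G : SimpleGraph V}

/-- an edge of `G` between `X` and `Y` -/
def Touch (G : SimpleGraph V) (X Y : Set V) : Prop := ∃ x ∈ X, ∃ y ∈ Y, G.Adj x y

/-- the part `B j` with all branches (connected sets inside an `A i`, without the hub) touching it -/
def comp (G : SimpleGraph V) (A : Fin 3 → Set V) (B : Fin 3 → Set V) (h : Fin 3 → V) (j : Fin 3) :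
    Set V :=
  {v | v ∈ B j ∨ ∃ i, ∃ C : Set V, C ⊆ A i ∧ h i ∉ C ∧ v ∈ C ∧ (G.induce C).Connected ∧
    Touch G C (B j)}

theorem connected_single (v : V) : (G.induce ({v} : Set V)).Connected := by
  have : Unique ({v} : Set V) := Set.uniqueSingleton v
  exact Connected.mk (Preconnected.of_subsingleton)

theorem cut_core (A B : Fin 3 → Set V) (h : Fin 3 → V)
    (cov : ∀ v, (∃ i, v ∈ A i) ∨ ∃ j, v ∈ B j)
    (dA : ∀ i i', i ≠ i' → Disjoint (A i) (A i')) (dB : ∀ j j', j ≠ j' → Disjoint (B j) (B j'))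
    (dAB : ∀ i j, Disjoint (A i) (B j))
    (pA : ∀ i i', i ≠ i' → ¬ Touch G (A i) (A i')) (pB : ∀ j j', j ≠ j' → ¬ Touch G (B j) (B j'))
    (cB : ∀ j, (G.induce (B j)).Connected) (hh : ∀ i, h i ∈ A i)
    (hub : ∀ i, ∀ C : Set V, C ⊆ A i → h i ∉ C → (G.induce C).Connected →
      ∀ j j', Touch G C (B j) → Touch G C (B j') → j = j') :
    (∀ j, (G.induce (comp G A B h j)).Connected) ∧
    (∀ j, B j ⊆ comp G A B h j) ∧
    (∀ j i, h i ∉ comp G A B h j) ∧
    (∀ j j', j ≠ j' → Disjoint (comp G A B h j) (comp G A B h j')) ∧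
    (∀ j, ∀ u ∈ comp G A B h j, ∀ v, G.Adj u v → v ∈ comp G A B h j ∨ ∃ i, v = h i) := by
  have hBne : ∀ j, (B j).Nonempty := fun j => by
    obtain ⟨⟨x, hx⟩⟩ := (cB j).nonempty
    exact ⟨x, hx⟩
  have hBs : ∀ j, B j ⊆ comp G A B h j := fun j v hv => Or.inl hv
  refine ⟨?_, hBs, ?_, ?_, ?_⟩
  · intro j
    obtain ⟨b, hb⟩ := hBne j
    refine induce_connected_of_patches b (hBs j hb) fun {v} hv => ?_
    rcases hv with hv | ⟨i, C, hCA, hhC, hvC, hC, x, hxC, y, hyB, hxy⟩
    · exact ⟨B j, hBs j, hb, hv, (cB j).preconnected _ _⟩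
    · refine ⟨C ∪ B j, ?_, Or.inr hb, Or.inl hvC, ?_⟩
      · rintro w (hw | hw)
        · exact Or.inr ⟨i, C, hCA, hhC, hw, hC, x, hxC, y, hyB, hxy⟩
        · exact Or.inl hw
      · exact (connected_induce_union hC.preconnected (cB j).preconnected hxC hyB hxy).preconnected _ _
  · rintro j i (hv | ⟨i', C, hCA, hhC, hvC, -⟩)
    · exact Set.disjoint_left.1 (dAB i j) (hh i) hv
    · by_cases e : i' = i
      · subst e
        exact hhC hvC
      · exact Set.disjoint_left.1 (dA i' i e) (hCA hvC) (hh i)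
  · intro j j' hjj
    rw [Set.disjoint_left]
    rintro v (hv | ⟨i, C, hCA, hhC, hvC, hC, hT⟩) (hv' | ⟨i', C', hCA', hhC', hvC', hC', hT'⟩)
    · exact Set.disjoint_left.1 (dB j j' hjj) hv hv'
    · exact Set.disjoint_left.1 (dAB i' j) (hCA' hvC') hv
    · exact Set.disjoint_left.1 (dAB i j') (hCA hvC) hv'
    · have e : i = i' := by
        by_contra e
        exact Set.disjoint_left.1 (dA i i' e) (hCA hvC) (hCA' hvC')
      subst e
      refine hjj (hub i (C ∪ C') (Set.union_subset hCA hCA') ?_ ?_ j j' ?_ ?_)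
      · rintro (h1 | h1)
        · exact hhC h1
        · exact hhC' h1
      · exact induce_union_connected hC.preconnected hC'.preconnected ⟨v, hvC, hvC'⟩
      · obtain ⟨x, hx, y, hy, hxy⟩ := hT
        exact ⟨x, Or.inl hx, y, hy, hxy⟩
      · obtain ⟨x, hx, y, hy, hxy⟩ := hT'
        exact ⟨x, Or.inr hx, y, hy, hxy⟩
  · rintro j u hu v huv
    rcases hu with hu | ⟨i, C, hCA, hhC, huC, hC, hT⟩
    · rcases cov v with ⟨i, hv⟩ | ⟨j', hv⟩
      · by_cases e : v = h i
        · exact Or.inr ⟨i, e⟩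
        · refine Or.inl (Or.inr ⟨i, {v}, ?_, fun h1 => e h1.symm, rfl, connected_single v,
            v, rfl, u, hu, huv.symm⟩)
          rintro w rfl
          exact hv
      · have e : j = j' := by
          by_contra e
          exact pB j j' e ⟨u, hu, v, hv, huv⟩
        subst e
        exact Or.inl (Or.inl hv)
    · rcases cov v with ⟨i', hv⟩ | ⟨j', hv⟩
      · have e : i = i' := by
          by_contra e
          exact pA i i' e ⟨u, hCA huC, v, hv, huv⟩
        subst e
        by_cases e : v = h i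
        · exact Or.inr ⟨i, e⟩
        · refine Or.inl (Or.inr ⟨i, C ∪ {v}, ?_, ?_, Or.inr rfl, ?_, ?_⟩)
          · rintro w (hw | rfl)
            · exact hCA hw
            · exact hv
          · rintro (h1 | h1)
            · exact hhC h1
            · exact e h1.symm
          · exact connected_induce_union hC.preconnected (connected_single v).preconnected huC rfl huv
          · obtain ⟨x, hx, y, hy, hxy⟩ := hT
            exact ⟨x, Or.inl hx, y, hy, hxy⟩
      · have e : j = j' := hub i C hCA hhC hC j j' hT ⟨u, huC, v, hv, huv⟩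
        subst e
        exact Or.inl (Or.inl hv)

end Vale.Agent.P235.K5.H910
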