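import Vale.Agent.P235.K5.H910.Cut
import Vale.Agent.P235.K5.W.Defs

/-!
# Row [W-CUT] in the letters of `K5/W/Defs.lean`
-/

namespace Vale.Agent.P235.K5.H910

open SimpleGraph Vale.Agent.P235.K5.W

/-- [W-CUT] -/
theorem cut : CutStmt := by
  intro V _ G f hM hA hB hub
  obtain ⟨hc, ht⟩ := hM
  choose h hh hl using hub
  have dis : ∀ a b : Fin 3 ⊕ Fin 3, a ≠ b → Disjoint (part f a) (part f b) := by
    intro a b hab
    rw [Set.disjoint_left]
    intro v hv hv'
    exact hab ((show f v = a from hv).symm.trans hv')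
  obtain ⟨h1, h2, h3, h4, h5⟩ := cut_core (G := G) (fun i => part f (Sum.inl i))
    (fun j => part f (Sum.inr j)) h
    (fun v => by
      rcases hfv : f v with i | j
      · exact Or.inl ⟨i, hfv⟩
      · exact Or.inr ⟨j, hfv⟩)
    (fun i i' hne => dis _ _ (fun e => hne (Sum.inl_injective e)))
    (fun j j' hne => dis _ _ (fun e => hne (Sum.inr_injective e)))
    (fun i j => dis _ _ (fun e => by cases e))
    (fun i i' hne => by
      rintro ⟨x, hx, y, hy, hxy⟩
      exact hA i i' hne ⟨x, y, hx, hy, hxy⟩)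
    (fun j j' hne => by
      rintro ⟨x, hx, y, hy, hxy⟩
      exact hB j j' hne ⟨x, y, hx, hy, hxy⟩)
    (fun j => hc (Sum.inr j)) hh
    (fun i C hCA hhC hC j j' hT hT' => by
      by_contra hne
      obtain ⟨x, hx, y, hy, hxy⟩ := hT
      obtain ⟨x', hx', y', hy', hxy'⟩ := hT'
      exact hl i C hCA hhC hC ⟨j, j', hne, ⟨x, hx, y, hy, hxy⟩, x', hx', y', hy', hxy'⟩)
  refine ⟨h, _, ?_, ?_, fun i j => h3 i j, h4, h5⟩
  · intro i i' e
    by_contra hne
    exact Set.disjoint_left.1 (dis (Sum.inl i) (Sum.inl i') (fun e => hne (Sum.inl_injective e)))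
      (hh i) (e ▸ hh i')
  · intro j
    obtain ⟨⟨x, hx⟩⟩ := (hc (Sum.inr j)).nonempty
    exact ⟨x, h2 j hx⟩

end Vale.Agent.P235.K5.H910
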